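import Crest.Agent.X212.Lab56.Cls
import Crest.Agent.X212.Ms48.Main
import Crest.Agent.X212.Bor5.Th
import Crest.Agent.X212.Cyf70.Cyl

-- ▼ part X212/Gm56/Sml
section

/-!
# Row 212, layer S (helper56), GEO-MOD: small modules, literal extension, patching

`exists_small` : every module lives in a fixed ambient space; `exists_ext` : a module that is a given one
on a closed set; `exists_patchM`; `Rp e m d` : the frame `e` with the module `m` represents the class `d`.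
-/

set_option autoImplicit false
set_option linter.unusedSectionVars false

open Set Filter Topology Function Matrix Module
open scoped ContDiff Manifold ComplexOrder
open Crest.Agent.X212.Pj41 Crest.Agent.X212.Met55 Crest.Agent.X212.Lab56
open Crest.Agent.X212.Line51 (Uni em)
open Crest.Agent.X212.Bor5.T (Pb)

noncomputable section

namespace Crest.Agent.X212.Gm56

variable {E : Type} [NormedAddCommGroup E] [NormedSpace ℝ E] [FiniteDimensional ℝ E]
  {H : Type} [TopologicalSpace H] {I : ModelWithCorners ℝ E H}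
  {M : Type} [TopologicalSpace M] [ChartedSpace H M] [IsManifold I ∞ M]
  {E' : Type} [NormedAddCommGroup E'] [NormedSpace ℝ E'] [FiniteDimensional ℝ E']
  {H' : Type} [TopologicalSpace H'] {I' : ModelWithCorners ℝ E' H'}
  {N : Type} [TopologicalSpace N] [ChartedSpace H' N] [IsManifold I' ∞ N]
  {ι ι' κ l : Type} [Fintype ι] [Fintype ι'] [Fintype κ] [Fintype l] [DecidableEq ι] [DecidableEq ι']
  [DecidableEq κ] [DecidableEq l]
  {P : M → Matrix ι ι ℝ} {m : C8 M ι κ} {n : C8 M ι l} {O C : Set M} {u w : M → Matrix l κ ℂ}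

/-- the image of a module under a partial isometry -/
def cjM (m : C8 M ι κ) (w : M → Matrix l κ ℂ) : C8 M ι l :=
  ⟨fun x => w x * (w x)ᴴ, fun a x => w x * m.ρ a x * (w x)ᴴ⟩

theorem on_cjM (h : m.On I P O) (sw : ∀ x ∈ O, MSm I w x) (h1 : ∀ x ∈ O, (w x)ᴴ * w x = m.p x)
    (h2 : ∀ x ∈ O, w x * m.p x = w x) : (cjM m w).On I P O ∧ CI I m (cjM m w) w O :=
  have k := fun x hx => (h.pc x hx).push (A := w x) ⟨h1 x hx, rfl, h2 x hx⟩
  ⟨⟨h.p4, fun x hx => (sw x hx).mul (sw x hx).ct,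
    fun a x hx => ((sw x hx).mul (h.sρ a x hx)).mul (sw x hx).ct, fun x hx => (k x hx).1⟩,
    sw, fun x hx => (k x hx).2⟩

/-- literal equality of modules on a set -/
def LE (m m' : C8 M ι κ) (O : Set M) : Prop := ∀ x ∈ O, m'.p x = m.p x ∧ m'.r x = m.r x

theorem LE.on {m' : C8 M ι κ} (e : LE m m' O) (hO : IsOpen O) (h : m.On I P O) : m'.On I P O :=
  have ev := fun x hx => eventually_of_mem (hO.mem_nhds (x := x) hx) e
  ⟨h.p4, fun x hx => (h.sp x hx).congr ((ev x hx).mono fun _ k => k.1),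
    fun a x hx => (h.sρ a x hx).congr ((ev x hx).mono fun _ k => congrFun k.2 a),
    fun x hx => by rw [(e x hx).1, (e x hx).2]; exact h.pc x hx⟩

theorem LE.mono {m' : C8 M ι κ} (e : LE m m' O) (h : C ⊆ O) : LE m m' C := fun x hx => e x (h hx)

theorem LE.symm {m' : C8 M ι κ} (e : LE m m' O) : LE m' m O :=
  fun x hx => ⟨(e x hx).1.symm, (e x hx).2.symm⟩

theorem LE.trans {m' m'' : C8 M ι κ} (e : LE m m' O) (e' : LE m' m'' O) : LE m m'' O :=
  fun x hx => ⟨(e' x hx).1.trans (e x hx).1, (e' x hx).2.trans (e x hx).2⟩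

theorem LE.ci {m' : C8 M ι κ} (e : LE m m' O) (h : m.On I P O) : CI I m m' m.p O :=
  h.refl.of_eq (fun _ _ => ⟨rfl, rfl⟩) e

theorem on_of_local (h : ∀ x ∈ O, ∃ V, x ∈ V ∧ m.On I P V) : m.On I P O := by
  choose! V hV h using h
  exact ⟨fun x hx => (h x hx).p4 x (hV x hx), fun x hx => (h x hx).sp x (hV x hx),
    fun a x hx => (h x hx).sρ a x (hV x hx), fun x hx => (h x hx).pc x (hV x hx)⟩

theorem ci_of_local (h : ∀ x ∈ O, ∃ V, x ∈ V ∧ CI I m n u V) : CI I m n u O := by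
  choose! V hV h using h
  exact ⟨fun x hx => (h x hx).sm x (hV x hx), fun x hx => (h x hx).un x (hV x hx)⟩

/-- **patching** of modules that agree literally on the overlaps -/
theorem exists_patchM {α : Type} {U : α → Set M} (hU : ∀ i, IsOpen (U i)) {k : α → C8 M ι κ}
    (h : ∀ i, (k i).On I P (U i)) (e : ∀ i j, LE (k i) (k j) (U i ∩ U j)) :
    ∃ g : C8 M ι κ, g.On I P (⋃ i, U i) ∧ ∀ i, LE (k i) g (U i) := by
  classical
  let c : ∀ x ∈ ⋃ i, U i, α := fun x hx => (mem_iUnion.1 hx).choose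
  have hc : ∀ x hx, x ∈ U (c x hx) := fun x hx => (mem_iUnion.1 hx).choose_spec
  let g : C8 M ι κ := ⟨fun x => if hx : x ∈ ⋃ i, U i then (k (c x hx)).p x else 0,
    fun a x => if hx : x ∈ ⋃ i, U i then (k (c x hx)).ρ a x else 0⟩
  have hg : ∀ i, LE (k i) g (U i) := fun i x hx => by
    have h1 : x ∈ ⋃ i, U i := mem_iUnion.2 ⟨i, hx⟩
    have h2 := e i _ x ⟨hx, hc x h1⟩
    exact ⟨(dif_pos h1).trans h2.1, funext fun a => (dif_pos h1).trans (congrFun h2.2 a)⟩
  exact ⟨g, on_of_local fun x hx => ⟨_, hc x hx, (hg _).on (hU _) (h _)⟩, hg⟩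

/-- patching of intertwiners over disjoint open sets -/
theorem exists_patchI {α : Type} {U : α → Set M} (hU : ∀ i, IsOpen (U i)) {v : α → M → Matrix l κ ℂ}
    (h : ∀ i, CI I m n (v i) (U i)) (e : ∀ i j, EqOn (v i) (v j) (U i ∩ U j)) :
    ∃ u, CI I m n u (⋃ i, U i) ∧ ∀ i, EqOn u (v i) (U i) := by
  classical
  let c : ∀ x ∈ ⋃ i, U i, α := fun x hx => (mem_iUnion.1 hx).choose
  have hc : ∀ x hx, x ∈ U (c x hx) := fun x hx => (mem_iUnion.1 hx).choose_spec
  let g : M → Matrix l κ ℂ := fun x => if hx : x ∈ ⋃ i, U i then v (c x hx) x else 0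
  have hg : ∀ i, EqOn g (v i) (U i) := fun i x hx =>
    have h1 : x ∈ ⋃ i, U i := mem_iUnion.2 ⟨i, hx⟩
    (dif_pos h1).trans (e _ i ⟨hc x h1, hx⟩)
  exact ⟨g, ci_of_local fun x hx => ⟨_, hc x hx, (h _).congr (hU _) (hg _)⟩, hg⟩

variable (κ) in
/-- the module in the first slot -/
def inl (n : C8 M ι l) : C8 M ι (l ⊕ κ) :=
  ⟨fun x => fromBlocks (n.p x) 0 0 0, fun a x => fromBlocks (n.ρ a x) 0 0 0⟩

theorem rows_mul_ct {k : Type} [Fintype k] (A B : Matrix l k ℂ) :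
    fromRows A (0 : Matrix κ k ℂ) * (fromRows B (0 : Matrix κ k ℂ))ᴴ = fromBlocks (A * Bᴴ) 0 0 0 := by
  rw [conjTranspose_fromRows_eq_fromCols_conjTranspose, fromRows_mul_fromCols]
  simp

theorem cjM_rows {k : Type} [Fintype k] [DecidableEq k] {m : C8 M ι k} {u : M → Matrix l k ℂ} {x : M}
    {w : M → Matrix (l ⊕ κ) k ℂ} (i : Un (m.p x) (m.r x) (n.p x) (n.r x) (u x))
    (hn : ∀ a, n.ρ a x * n.p x = n.ρ a x) (e : w x = fromRows (u x) 0) :
    (cjM m w).p x = (inl κ n).p x ∧ (cjM m w).r x = (inl κ n).r x := by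
  refine ⟨?_, funext fun a => ?_⟩
  · show w x * (w x)ᴴ = _
    rw [e, rows_mul_ct, i.iso.tgt]; rfl
  · show w x * m.ρ a x * (w x)ᴴ = fromBlocks (n.ρ a x) 0 0 0
    rw [e, fromRows_mul, Matrix.zero_mul, rows_mul_ct, i.ρ a, Matrix.mul_assoc, i.iso.tgt, hn]

theorem on_inl (h : n.On I P O) (hO : IsOpen O) :
    (inl κ n).On I P O ∧ CI I n (inl κ n) (fun x => fromRows (n.p x) 0) O := by
  have k := on_cjM (w := fun x => fromRows (n.p x) (0 : Matrix κ l ℂ)) h
    (fun x hx => (h.sp x hx).fromRows (MSm.const _))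
    (fun x hx => by
      rw [conjTranspose_fromRows_eq_fromCols_conjTranspose, fromCols_mul_fromRows, (h.pc x hx).prj.herm,
        (h.pc x hx).prj.idem]; simp)
    fun x hx => by rw [fromRows_mul, (h.pc x hx).prj.idem, Matrix.zero_mul]
  have e : LE (cjM n fun x => fromRows (n.p x) (0 : Matrix κ l ℂ)) (inl κ n) O :=
    LE.symm fun x hx => cjM_rows (u := n.p) (h.pc x hx).refl (h.pc x hx).cl.pr rfl
  exact ⟨e.on hO k.1, k.2.of_eq (fun _ _ => ⟨rfl, rfl⟩) e⟩

/-- **literal extension** : a module isomorphic to `m` that is `n` on the closed set `C` -/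
theorem exists_ext [T2Space M] [SigmaCompactSpace M] (h : m.On I P univ) (hO : IsOpen O)
    (hC : IsClosed C) (hCO : C ⊆ O) (hn : n.On I P O) (i : CI I m n u O) :
    ∃ (g : C8 M ι (l ⊕ κ)) (w : M → Matrix (l ⊕ κ) κ ℂ), g.On I P univ ∧ CI I m g w univ ∧
      LE (inl κ n) g C ∧ ∀ x ∈ C, w x = fromRows (u x) 0 := by
  obtain ⟨χ, hχ⟩ := exists_sqP (I := I) (U := fun b : Bool => cond b O Cᶜ)
    (by rintro (_ | _); exacts [hC.isOpen_compl, hO])
    fun x => (em' (x ∈ C)).elim (fun k => ⟨false, k⟩) fun k => ⟨true, hCO k⟩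
  have hcs : ∀ x, χ true x * χ true x + χ false x * χ false x = 1 := fun x => by
    have := hχ.sq x
    rw [Fintype.sum_bool] at this
    rw [← this]; ring
  have e : ∀ x ∈ C, fromRows (χ true x • u x) (χ false x • m.p x) = fromRows (u x) 0 := fun x hx => by
    have h0 : χ false x = 0 := by_contra fun k => hχ.mem (i := false) k hx
    have h1 := hcs x
    rw [h0, mul_zero, add_zero] at h1
    rw [h0, zero_smul, show χ true x = 1 by nlinarith [hχ.nonneg true x], one_smul]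
  have k := on_cjM (w := fun x => fromRows (χ true x • u x) (χ false x • m.p x)) h
    (fun x hx => (MSm.cutoff (hχ.sm true x) (hχ.supp true) (i.sm x)).fromRows
      (MSm.rsmul (hχ.sm false x) (h.sp x hx)))
    (fun x hx => by
      rw [rows_ct_mul, (h.pc x hx).prj.herm, (h.pc x hx).prj.idem]
      by_cases h0 : χ true x = 0
      · have h1 := hcs x
        rw [h0, mul_zero, zero_add] at h1
        rw [h0, h1, mul_zero, zero_smul, one_smul, zero_add]
      · rw [(i.un x (hχ.mem (i := true) h0)).iso.src, ← add_smul, hcs, one_smul])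
    fun x hx => by
      rw [fromRows_mul, Matrix.smul_mul, Matrix.smul_mul, (h.pc x hx).prj.idem]
      by_cases h0 : χ true x = 0
      · rw [h0, zero_smul, zero_smul]
      · rw [(i.un x (hχ.mem (i := true) h0)).iso.idem]
  exact ⟨_, _, k.1, k.2, fun x hx => cjM_rows (i.un x (hCO hx)) (hn.pc x (hCO hx)).cl.pr (e x hx), e⟩

/-! ### small ambient spaces -/

section small

variable [I.Boundaryless] [SecondCountableTopology M]

theorem step4 {k : ℕ} (hk : finrank ℝ E + 8 < 2 * (k + 1)) {m : C8 M ι (Fin (k + 1))}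
    (h : m.On I P univ) : ∃ (g : C8 M ι (Fin k)) (w : M → Matrix (Fin k) (Fin (k + 1)) ℂ),
      g.On I P univ ∧ CI I m g w univ := by
  obtain ⟨v, hv⟩ := Ms48.avoid (I := I) (A := Fin (k + 1) → Fin 4 → ℂ) (F := Fin 4 → ℂ)
    (G := fun w i => ∑ j, w.1 i j * w.2 j) (by fun_prop)
    (by rw [finrank_pi_fintype, finrank_pi_fintype]; simp; omega)
    (fun x => {w | m.p x *ᵥ w = w}) fun x₀ => by
      obtain ⟨V, s, h1, h2, -, h3⟩ := Pj41.exists_frame (I := I) isOpen_univ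
        (fun y hy => ⟨h.sp y hy, (h.pc y hy).prj⟩) (mem_univ x₀)
      have h4 : (m.p x₀).rank = 4 := by
        have := (h.pc x₀ trivial).prj.trace_eq_rank
        rw [(h.pc x₀ trivial).tr] at this
        exact_mod_cast this.symm
      refine ⟨fun x i j => s x i (Fin.cast h4.symm j), ?_⟩
      filter_upwards [h1.mem_nhds h2] with x hx
      refine ⟨contMDiffAt_pi_space.2 fun i => contMDiffAt_pi_space.2 fun j => (h3 x hx).1 i _,
        fun w hw => ⟨fun j => ((s x)ᴴ *ᵥ w) (Fin.cast h4.symm j), ?_⟩⟩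
      refine Eq.trans ?_ (show m.p x *ᵥ w = w from hw)
      rw [← (h3 x hx).2.tgt, ← mulVec_mulVec]
      funext i
      exact (finCongr h4.symm).sum_comp fun j => s x i j * ((s x)ᴴ *ᵥ w) j
  rcases isEmpty_or_nonempty M with h0 | ⟨⟨x₀⟩⟩
  · exact ⟨⟨0, 0⟩, 0, on_of_local fun x => isEmptyElim x, ci_of_local fun x => isEmptyElim x⟩
  obtain ⟨Q, hQ⟩ := Ms48.exists_drop (v := v) fun h0 => hv x₀ (by simp [h0])
  have hg : ∀ x, (gram (m.p x) (Q * m.p x)).PosDef := fun x =>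
    gram_posDef (h.pc x trivial).prj fun w h1 h2 => by
      rw [← mulVec_mulVec, h1] at h2
      obtain ⟨c, rfl⟩ := hQ w h2
      by_contra h3
      have h4 : c ≠ 0 := fun e => h3 (by simp [e])
      rw [mulVec_smul] at h1
      exact hv x (smul_right_injective _ h4 h1)
  have k := fun x => nrm_src (h.pc x trivial).prj (a := Q * m.p x)
    (by rw [Matrix.mul_assoc, (h.pc x trivial).prj.idem]) (hg x)
  exact ⟨_, _, on_cjM (w := fun x => nrm (m.p x) (Q * m.p x)) h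
    (fun x hx => MSm.nrm (h.sp x hx) ((MSm.const Q).mul (h.sp x hx))
      (Eventually.of_forall fun y => (h.pc y trivial).prj) (hg x)) (fun x _ => (k x).1) fun x _ => (k x).2⟩

/-- **every module lives in `ℂ ^ l`** if `l` has at least six elements (dimension at most four) -/
theorem exists_small (hd : finrank ℝ E ≤ 4) (hl : 6 ≤ Fintype.card l) (h : m.On I P univ) :
    ∃ (g : C8 M ι l) (w : M → Matrix l κ ℂ), g.On I P univ ∧ CI I m g w univ := by
  have key : ∀ k, ∀ m : C8 M ι (Fin (6 + k)), m.On I P univ →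
      ∃ (g : C8 M ι (Fin 6)) (w : M → Matrix (Fin 6) (Fin (6 + k)) ℂ),
        g.On I P univ ∧ CI I m g w univ := fun k => by
    induction k with
    | zero => exact fun m h => ⟨m, m.p, h, h.refl⟩
    | succ k ih =>
      intro m h
      obtain ⟨g, w, h1, h2⟩ := step4 (k := 6 + k) (by omega) h
      obtain ⟨g', w', h3, h4⟩ := ih g h1
      exact ⟨g', _, h3, h2.trans h4⟩
  obtain ⟨k, f, hf⟩ := Ms48.exists_emb κ 6
  have h1 := h.push (Line51.em_iso hf)
  obtain ⟨g, w, h2, h3⟩ := key k _ h1.1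
  obtain ⟨j⟩ := Function.Embedding.nonempty_of_card_le (α := Fin 6) (β := l) (by simpa using hl)
  have h4 := h2.push (Line51.em_iso j.injective)
  exact ⟨_, _, h4.1, (h1.2.trans h3).trans h4.2⟩

end small

/-! ### representatives of classes -/

/-- the frame `e` with the module `m` represents the class `d` -/
def Rp (e : ι → VF I M) (m : C8 M ι κ) (d : Cls I (univ : Set M)) : Prop :=
  ∃ h : (⟨e, m⟩ : Sc I M ι κ).On univ, h.cls = d

variable {e : ι → VF I M} {d : Cls I (univ : Set M)} {e' : ι' → VF I' N} {s : Cls I' (univ : Set N)}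
  {k : C8 N ι' l} {f : N → M} {W : Set N}

theorem Rp.fr (h : Rp e m d) (x : M) : FAt e x := h.1.fr x trivial

theorem Rp.on (h : Rp e m d) : m.On I (fP e) univ := h.1.m

theorem Rp.uniq {d' : Cls I (univ : Set M)} (h : Rp e m d) (h' : Rp e m d') : d = d' :=
  h.2.symm.trans h'.2

theorem rp_cls (he : ∀ x, FAt e x) (h : m.On I (fP e) univ) : ∃ d, Rp e m d :=
  ⟨_, ⟨fun x _ => he x, h⟩, rfl⟩

variable [T2Space M] [SigmaCompactSpace M] [I.Boundaryless]

theorem Rp.of_eqv {w : ι' → VF I M} {g : C8 M ι' l} (h : Rp e m d) (hw : ∀ x, FAt w x)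
    (hg : g.On I (fP w) univ) (i : Eqv (⟨e, m⟩ : Sc I M ι κ) ⟨w, g⟩ univ) : Rp w g d :=
  ⟨⟨fun x _ => hw x, hg⟩, ((cls_eq_iff isOpen_univ h.1 _).2 i).symm.trans h.2⟩

theorem Rp.of_ci (h : Rp e m d) (hn : n.On I (fP e) univ) (i : CI I m n u univ) : Rp e n d :=
  h.of_eqv h.fr hn ⟨u, (iw_iff h.1).2 i⟩

theorem Rp.eqv {w : ι' → VF I M} {g : C8 M ι' l} (h : Rp e m d) (h' : Rp w g d) :
    Eqv (⟨e, m⟩ : Sc I M ι κ) ⟨w, g⟩ univ := (cls_eq_iff isOpen_univ h.1 h'.1).1 (h.2.trans h'.2.symm)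

theorem Rp.ci (h : Rp e m d) (h' : Rp e n d) : ∃ u, CI I m n u univ :=
  let ⟨u, i⟩ := h.eqv h'; ⟨u, (iw_iff h.1).1 i⟩

/-- every class is represented over every frame, in a fixed ambient space -/
theorem exists_rp [SecondCountableTopology M] (hd : finrank ℝ E ≤ 4) (hl : 6 ≤ Fintype.card l)
    (he : ∀ x, FAt e x) (d : Cls I (univ : Set M)) : ∃ n : C8 M ι l, Rp e n d := by
  obtain ⟨_, _, a, h, rfl⟩ := Cls.ind isOpen_univ d
  have h1 := h.tp (w := e) fun x _ => he x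
  obtain ⟨g, w, h2, h3⟩ := exists_small hd hl h1
  exact ⟨g, (Rp.of_eqv ⟨h, rfl⟩ he h1 (Eqv.chg h fun x _ => he x)).of_ci h2 h3⟩

omit [T2Space M] [SigmaCompactSpace M] [I.Boundaryless] in
/-- `Pb` in terms of representatives -/
theorem pb_iff [T2Space N] [SigmaCompactSpace N] [I'.Boundaryless] (hW : IsOpen W) (h : Rp e m d)
    (h' : Rp e' k s) : Pb f W d s ↔ (∀ y ∈ W, IsLocalDiffeomorphAt I' I ∞ f y) ∧
      Eqv ((⟨e, m⟩ : Sc I M ι κ).pull I' f) ⟨e', k⟩ W := by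
  obtain ⟨h, rfl⟩ := h
  obtain ⟨h', rfl⟩ := h'
  have key : ∀ hf : ∀ y ∈ W, IsLocalDiffeomorphAt I' I ∞ f y,
      h.cls.pull hf (mapsTo_univ _ _) = h'.cls.res (subset_univ W) ↔
        Eqv ((⟨e, m⟩ : Sc I M ι κ).pull I' f) ⟨e', k⟩ W := fun hf => by
    rw [pull_cls hW, res_cls, cls_eq_iff hW]
  exact ⟨fun ⟨hf, i⟩ => ⟨hf, (key hf).1 i⟩, fun ⟨hf, i⟩ => ⟨hf, (key hf).2 i⟩⟩

/-- a map that relates the frames pulls the data back to the frame downstairs -/
theorem pull_eq {e' : ι → VF I' N} (hf : ∀ y ∈ W, IsLocalDiffeomorphAt I' I ∞ f y)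
    (hr : ∀ y ∈ W, ∀ a, mfderiv I' I f y (e' a y) = e a (f y)) (m : C8 M ι κ) :
    ((⟨e, m⟩ : Sc I M ι κ).pull I' f).Eq ⟨e', m.comp f⟩ W := fun y hy =>
  ⟨funext fun a => (pbv_unique (hf y hy) (hr y hy a)).symm, rfl, rfl⟩

omit [T2Space M] [SigmaCompactSpace M] [I.Boundaryless] in
theorem on_comp {e' : ι → VF I' N} (h : m.On I (fP e) O) (he : ∀ y ∈ W, FAt e' y)
    (hf : ∀ y ∈ W, IsLocalDiffeomorphAt I' I ∞ f y) (hm : MapsTo f W O)
    (hr : ∀ y ∈ W, ∀ a, mfderiv I' I f y (e' a y) = e a (f y)) : (m.comp f).On I' (fP e') W :=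
  (h.comp (fun y hy => (hf y hy).contMDiffAt) hm).congr fun y hy =>
    fP_rel (hf y hy) (he y hy).sp (hr y hy)

omit [T2Space M] [SigmaCompactSpace M] [I.Boundaryless] in
/-- `Pb` along a map that relates the frames -/
theorem pb_iff_ci [T2Space N] [SigmaCompactSpace N] [I'.Boundaryless] {e' : ι → VF I' N} {k : C8 N ι l}
    (hW : IsOpen W) (h : Rp e m d) (h' : Rp e' k s) (hf : ∀ y ∈ W, IsLocalDiffeomorphAt I' I ∞ f y)
    (hr : ∀ y ∈ W, ∀ a, mfderiv I' I f y (e' a y) = e a (f y)) :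
    Pb f W d s ↔ ∃ u, CI I' (m.comp f) k u W := by
  have e1 : ((⟨e, m⟩ : Sc I M ι κ).pull I' f).Eq ⟨e', m.comp f⟩ W := fun y hy =>
    ⟨funext fun a => (pbv_unique (hf y hy) (hr y hy a)).symm, rfl, rfl⟩
  have h1 : (⟨e', m.comp f⟩ : Sc I' N ι κ).On W :=
    ⟨fun y _ => h'.fr y, on_comp h.on (fun y _ => h'.fr y) hf (mapsTo_univ _ _) hr⟩
  rw [pb_iff hW h h']
  exact ⟨fun ⟨_, i⟩ => let ⟨u, j⟩ := i.of_eq e1 (Sc.Eq.refl _ _); ⟨u, (iw_iff h1).1 j⟩,
    fun ⟨u, j⟩ => ⟨hf, Eqv.of_eq ⟨u, (iw_iff h1).2 j⟩ e1.symm (Sc.Eq.refl _ _)⟩⟩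

end Crest.Agent.X212.Gm56
end
end

-- ▼ part X212/Gm56/Nck

/-!
# Row 212, layer S (helper56), GEO-MOD: cross-sections, families of frames, necks, gluing

`exists_end`, `Rp.dfm`, `Rp.fam`, `Rel` (partial diffeomorphisms that relate frames), `exists_nk`,
`glM`, `eq_of_pb` (uniqueness of glued classes), `exists_gau` (normal form of intertwiners on necks).
-/

set_option autoImplicit false
set_option linter.unusedSectionVars false

open Set Filter Topology Function Matrix Module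
open scoped ContDiff Manifold ComplexOrder
open Crest.Agent.X212.Pj41 Crest.Agent.X212.Met55 Crest.Agent.X212.Lab56
open Crest.Agent.X212.Pic56 (HasLog)
open Crest.Agent.X212.Bor5.T (Pb)
open Crest.Agent.X212.Cyf70 (IC ce)
open Crest.Agent.X212.M (Mf)

noncomputable section

namespace Crest.Agent.X212.Gm56

variable {E : Type} [NormedAddCommGroup E] [NormedSpace ℝ E] [FiniteDimensional ℝ E]
  {H : Type} [TopologicalSpace H] {I : ModelWithCorners ℝ E H}
  {M : Type} [TopologicalSpace M] [ChartedSpace H M] [IsManifold I ∞ M]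
  {E' : Type} [NormedAddCommGroup E'] [NormedSpace ℝ E'] [FiniteDimensional ℝ E']
  {H' : Type} [TopologicalSpace H'] {I' : ModelWithCorners ℝ E' H'}
  {N : Type} [TopologicalSpace N] [ChartedSpace H' N] [IsManifold I' ∞ N]
  {E'' : Type} [NormedAddCommGroup E''] [NormedSpace ℝ E''] [FiniteDimensional ℝ E'']
  {H'' : Type} [TopologicalSpace H''] {I'' : ModelWithCorners ℝ E'' H''}
  {Z : Type} [TopologicalSpace Z] [ChartedSpace H'' Z] [IsManifold I'' ∞ Z]
  {ι κ l : Type} [Fintype ι] [Fintype κ] [Fintype l] [DecidableEq ι] [DecidableEq κ] [DecidableEq l]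
  {P : M → Matrix ι ι ℝ} {m : C8 M ι κ} {n : C8 M ι l} {O C U V : Set M} {u v : M → Matrix l κ ℂ}
  {e : ι → VF I M} {d d' : Cls I (univ : Set M)} {x : M}

/-! ### functions -/

theorem fsm_cut {χ f : M → ℝ} (hχ : FSm I χ x) (hU : tsupport χ ⊆ U) (hf : x ∈ U → FSm I f x) :
    FSm I (fun y => χ y * f y) x :=
  MSm.cutoff (a := fun y (_ _ : Unit) => f y) hχ hU (fun h _ _ => hf h) () ()

theorem fsm_cexp {r : M → ℝ} (h : FSm I r x) : FSm I (fun y => Complex.exp (r y * Complex.I)) x := by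
  simpa only [Circle.coe_exp] using fsm_exp h

theorem norm_cexp (r : ℝ) : ‖Complex.exp (r * Complex.I)‖ = 1 := Complex.norm_exp_ofReal_mul_I r

theorem CI.exp (i : CI I m n u O) {r : M → ℝ} (hr : ∀ x ∈ O, FSm I r x) :
    CI I m n (fun x => Complex.exp (r x * Complex.I) • u x) O :=
  i.smul' (fun x hx => fsm_cexp (hr x hx)) fun _ _ => norm_cexp _

theorem CI.ratio (h : m.On I P O) (h' : n.On I P O) (i : CI I m n u O) (j : CI I m n v O) :
    ∃ c : M → ℂ, ∀ x ∈ O, FSm I c x ∧ ‖c x‖ = 1 ∧ v x = c x • u x :=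
  ⟨fun x => ((u x)ᴴ * v x).trace / 4, fun x hx =>
    have k := (i.un x hx).ratio (h.p4 x hx) (h.pc x hx) (h'.pc x hx) (j.un x hx)
    ⟨by simpa only [div_eq_mul_inv] using ((i.sm x hx).ct.mul (j.sm x hx)).trace.mul' contMDiffAt_const,
      k.2, k.1⟩⟩

variable (I) in
/-- smooth unit functions on `O` have smooth logarithms -/
def SL (O : Set M) : Prop := ∀ c : M → ℂ, (∀ x ∈ O, FSm I c x ∧ ‖c x‖ = 1) →
  ∃ r : M → ℝ, ∀ x ∈ O, FSm I r x ∧ c x = Complex.exp (r x * Complex.I)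

theorem exists_arg' (hO : IsOpen O) {c : M → ℂ} (h : ∀ x ∈ O, FSm I c x ∧ ‖c x‖ = 1) (hl : HasLog c O) :
    ∃ r : M → ℝ, ∀ x ∈ O, FSm I r x ∧ c x = Complex.exp (r x * Complex.I) := by
  simpa only [Circle.coe_exp] using exists_arg hO (fun x hx => (h x hx).1) (fun x hx => (h x hx).2) hl

/-- a unit function on a cylinder is its slice times an exponential -/
theorem exists_slice {J : Set ℝ} (hJ : IsOpen J) (hc : OrdConnected J) {s : ℝ} (hs : s ∈ J)
    {c : M × ℝ → ℂ} (h : ∀ z ∈ univ ×ˢ J, FSm (IC I) c z ∧ ‖c z‖ = 1) : ∃ r : M × ℝ → ℝ,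
      ∀ z ∈ univ ×ˢ J, FSm (IC I) r z ∧ c z = c (z.1, s) * Complex.exp (r z * Complex.I) := by
  have n0 : ∀ z ∈ univ ×ˢ J, c z ≠ 0 := fun z hz e => by simpa [e] using (h z hz).2
  have k : ∀ z ∈ univ ×ˢ J, FSm (IC I) (fun z => c z * (c (z.1, s))⁻¹) z ∧ ‖c z * (c (z.1, s))⁻¹‖ = 1 :=
    fun z hz => ⟨(h z hz).1.mul' (FSm.inv' (((h (z.1, s) ⟨trivial, hs⟩).1).comp z
      (contMDiffAt_fst.prodMk contMDiffAt_const)) (n0 _ ⟨trivial, hs⟩)),
      by rw [norm_mul, norm_inv, (h z hz).2, (h _ ⟨trivial, hs⟩).2]; simp⟩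
  obtain ⟨r, hr⟩ := exists_arg' (isOpen_univ.prod hJ) k ((dfm_cyl univ hc hs (mem_singleton s)).hasLog
    (fun z hz => (k z hz).1.continuousAt.continuousWithinAt) (fun z hz e => by simpa [e] using (k z hz).2)
    ((HasLog.const one_ne_zero _).congr fun z hz => by
      rw [show z = (z.1, s) from Prod.ext rfl hz.2]; exact mul_inv_cancel₀ (n0 _ ⟨trivial, hs⟩)))
  exact ⟨r, fun z hz => ⟨(hr z hz).1, by
    rw [← (hr z hz).2, mul_left_comm, mul_inv_cancel₀ (n0 _ ⟨trivial, hs⟩), mul_one]⟩⟩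

theorem SL.cyl (h : SL I (univ : Set M)) {J : Set ℝ} (hJ : IsOpen J) (hc : OrdConnected J) :
    SL (IC I) ((univ : Set M) ×ˢ J) := fun c k => by
  rcases J.eq_empty_or_nonempty with rfl | ⟨s, hs⟩
  · exact ⟨0, fun z hz => hz.2.elim⟩
  obtain ⟨r, hr⟩ := exists_slice hJ hc hs k
  obtain ⟨a, ha⟩ := h (fun y => c (y, s)) fun y _ => ⟨(k (y, s) ⟨trivial, hs⟩).1.comp y
    (contMDiffAt_id.prodMk contMDiffAt_const), (k _ ⟨trivial, hs⟩).2⟩
  exact ⟨fun z => a z.1 + r z, fun z hz => ⟨((ha _ trivial).1.comp z contMDiffAt_fst).add (hr z hz).1, by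
    rw [(hr z hz).2, (ha _ trivial).2, ← Complex.exp_add]; push_cast; ring_nf⟩⟩

theorem SL.map {ψ : OpenPartialHomeomorph N M} (h : SL I' ψ.source)
    (h1 : ContMDiffOn I' I ∞ ψ ψ.source) (h2 : ContMDiffOn I I' ∞ ψ.symm ψ.target) : SL I ψ.target :=
  fun c k => by
    obtain ⟨r, hr⟩ := h (fun y => c (ψ y)) fun y hy => ⟨(k _ (ψ.map_source hy)).1.comp y
      ((h1 y hy).contMDiffAt (ψ.open_source.mem_nhds hy)), (k _ (ψ.map_source hy)).2⟩
    exact ⟨fun x => r (ψ.symm x), fun x hx => ⟨(hr _ (ψ.map_target hx)).1.comp x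
      ((h2 x hx).contMDiffAt (ψ.open_target.mem_nhds hx)), by
        rw [← (hr _ (ψ.map_target hx)).2, ψ.right_inv hx]⟩⟩

/-! ### partial diffeomorphisms that relate frames -/

/-- `ψ` maps the frame `e'` to the frame `e` -/
structure Rel (e' : ι → VF I' N) (e : ι → VF I M) (ψ : OpenPartialHomeomorph N M) : Prop where
  sm : ContMDiffOn I' I ∞ ψ ψ.source
  sm' : ContMDiffOn I I' ∞ ψ.symm ψ.target
  e : ∀ a, ∀ y ∈ ψ.source, mfderiv I' I ψ y (e' a y) = e a (ψ y)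

section rel
variable {e' : ι → VF I' N} {ψ : OpenPartialHomeomorph N M} {k : C8 N ι l} {s : Cls I' (univ : Set N)}

theorem Rel.ld (h : Rel e' e ψ) {y : N} (hy : y ∈ ψ.source) : IsLocalDiffeomorphAt I' I ∞ ψ y :=
  ld_of_oph h.sm h.sm' hy

theorem Rel.sa' (h : Rel e' e ψ) (hx : x ∈ ψ.target) : ContMDiffAt I I' ∞ ψ.symm x :=
  (h.sm' x hx).contMDiffAt (ψ.open_target.mem_nhds hx)

theorem Rel.prj (h : Rel e' e ψ) {y : N} (hy : y ∈ ψ.source) (hs : FAt e' y) : fP e' y = fP e (ψ y) :=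
  fP_rel (h.ld hy) hs.sp fun a => h.e a y hy

theorem Rel.on (h : Rel e' e ψ) {W : Set N} (hW : W ⊆ ψ.source) (he : ∀ y ∈ W, FAt e' y)
    (hk : k.On I' (fP e') W) : (k.comp ψ.symm).On I (fP e) (ψ '' W) :=
  (hk.comp (f := ψ.symm) (W := ψ '' W) (by rintro _ ⟨y, hy, rfl⟩; exact h.sa' (ψ.map_source (hW hy)))
    (by rintro _ ⟨y, hy, rfl⟩; rwa [ψ.left_inv (hW hy)])).congr (by
      rintro _ ⟨y, hy, rfl⟩; rw [ψ.left_inv (hW hy), h.prj (hW hy) (he y hy)])

theorem Rel.ci (h : Rel e' e ψ) {W : Set N} (hW : W ⊆ ψ.source) {w : N → Matrix l κ ℂ}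
    (i : CI I' (m.comp ψ) k w W) : CI I m (k.comp ψ.symm) (fun x => w (ψ.symm x)) (ψ '' W) :=
  (i.comp (f := ψ.symm) (W := ψ '' W) (by rintro _ ⟨y, hy, rfl⟩; exact h.sa' (ψ.map_source (hW hy)))
    (by rintro _ ⟨y, hy, rfl⟩; rwa [ψ.left_inv (hW hy)])).of_eq (by
      rintro _ ⟨y, hy, rfl⟩
      have := ψ.right_inv (ψ.map_source (hW hy))
      exact ⟨(congrArg m.p this).symm, (congrArg m.r this).symm⟩) fun _ _ => ⟨rfl, rfl⟩

variable [T2Space N] [SigmaCompactSpace N] [I'.Boundaryless]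

theorem Rel.pb_iff (h : Rel e' e ψ) {W : Set N} (hW : IsOpen W) (hs : W ⊆ ψ.source) (a : Rp e m d)
    (b : Rp e' k s) : Pb ψ W d s ↔ ∃ u, CI I' (m.comp ψ) k u W :=
  pb_iff_ci hW a b (fun _ hy => h.ld (hs hy)) fun y hy c => h.e c y (hs hy)

/-- literal correspondence gives `Pb` -/
theorem Rel.pb_of_le {k : C8 N ι κ} (h : Rel e' e ψ) {W : Set N} (hW : IsOpen W) (hs : W ⊆ ψ.source)
    (a : Rp e m d) (b : Rp e' k s) (q : LE k (m.comp ψ) W) : Pb ψ W d s :=
  (h.pb_iff hW hs a b).2 ⟨_, q.symm.ci (q.on hW (b.on.mono (subset_univ _)))⟩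

end rel

/-! ### gluing -/

open Classical in
/-- the module glued from `m₁` and `m₂` -/
def glM (l : OpenPartialHomeomorph N M) (r : OpenPartialHomeomorph Z M) (m₁ : C8 N ι κ) (m₂ : C8 Z ι κ) :
    C8 M ι κ := ⟨fun x => if x ∈ l.target then m₁.p (l.symm x) else m₂.p (r.symm x),
  fun a x => if x ∈ l.target then m₁.ρ a (l.symm x) else m₂.ρ a (r.symm x)⟩

section glue
variable {l : OpenPartialHomeomorph N M} {r : OpenPartialHomeomorph Z M} {m₁ : C8 N ι κ} {m₂ : C8 Z ι κ}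
  {e₁ : ι → VF I' N} {e₂ : ι → VF I'' Z}

theorem glM_l : LE m₁ ((glM l r m₁ m₂).comp l) l.source := fun y hy =>
  ⟨(if_pos (l.map_source hy)).trans (by rw [l.left_inv hy]),
    funext fun _ => (if_pos (l.map_source hy)).trans (by rw [l.left_inv hy])⟩

theorem glM_r (q : ∀ y ∈ l.source, ∀ z ∈ r.source, l y = r z → m₁.p y = m₂.p z ∧ m₁.r y = m₂.r z) :
    LE m₂ ((glM l r m₁ m₂).comp r) r.source := fun z hz => by
  by_cases h : r z ∈ l.target
  · have k := q _ (l.map_target h) z hz (l.right_inv h)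
    exact ⟨(if_pos h).trans k.1, funext fun a => (if_pos h).trans (congrFun k.2 a)⟩
  · exact ⟨(if_neg h).trans (by rw [r.left_inv hz]), funext fun _ => (if_neg h).trans (by rw [r.left_inv hz])⟩

theorem le_symm {k : C8 N ι κ} (q : LE k (m.comp l) l.source) : LE (k.comp l.symm) m l.target :=
  fun x hx => by
    have := q _ (l.map_target hx)
    exact ⟨(congrArg m.p (l.right_inv hx)).symm.trans this.1, (congrArg m.r (l.right_inv hx)).symm.trans this.2⟩

theorem on_glM (h₁ : Rel e₁ e l) (h₂ : Rel e₂ e r) (hc : l.target ∪ r.target = univ)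
    (a₁ : ∀ y, FAt e₁ y) (a₂ : ∀ y, FAt e₂ y) (b₁ : m₁.On I' (fP e₁) univ) (b₂ : m₂.On I'' (fP e₂) univ)
    (q : ∀ y ∈ l.source, ∀ z ∈ r.source, l y = r z → m₁.p y = m₂.p z ∧ m₁.r y = m₂.r z) :
    (glM l r m₁ m₂).On I (fP e) univ := on_of_local fun x _ => by
  rcases (hc ▸ mem_univ x : x ∈ l.target ∪ r.target) with h | h
  · exact ⟨_, h, (le_symm glM_l).on l.open_target (l.image_source_eq_target ▸
      h₁.on subset_rfl (fun y _ => a₁ y) (b₁.mono (subset_univ _)))⟩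
  · exact ⟨_, h, (le_symm (glM_r q)).on r.open_target (r.image_source_eq_target ▸
      h₂.on subset_rfl (fun y _ => a₂ y) (b₂.mono (subset_univ _)))⟩

end glue

variable [T2Space M] [SigmaCompactSpace M]

/-- smooth functions on disjoint open sets extend from a closed set -/
theorem exists_fun {α : Type} {O : α → Set M} (hO : ∀ i, IsOpen (O i)) (hd : Pairwise (Disjoint on O))
    (hC : IsClosed C) (hCO : C ⊆ ⋃ i, O i) {θ : α → M → ℝ} (h : ∀ i, ∀ x ∈ O i, FSm I (θ i) x) :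
    ∃ β : M → ℝ, (∀ x, FSm I β x) ∧ (∀ i, ∀ x ∈ C ∩ O i, β x = θ i x) ∧ ∀ x ∉ ⋃ i, O i, β x = 0 := by
  classical
  obtain ⟨χ, hχ⟩ := exists_sqP (I := I) (U := fun b : Bool => cond b (⋃ i, O i) Cᶜ)
    (by rintro (_ | _); exacts [hC.isOpen_compl, isOpen_iUnion hO])
    fun x => (em' (x ∈ C)).elim (fun k => ⟨false, k⟩) fun k => ⟨true, hCO k⟩
  let f : M → ℝ := fun x => if hx : x ∈ ⋃ i, O i then θ (mem_iUnion.1 hx).choose x else 0
  have hf : ∀ i, ∀ x ∈ O i, f x = θ i x := fun i x hx => by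
    have h1 : x ∈ ⋃ i, O i := mem_iUnion.2 ⟨i, hx⟩
    have h2 : (mem_iUnion.1 h1).choose = i := by_contra fun k =>
      disjoint_left.1 (hd k) (mem_iUnion.1 h1).choose_spec hx
    simp only [f, dif_pos h1, h2]
  refine ⟨fun x => χ true x * f x, fun x => fsm_cut (hχ.sm true x) (hχ.supp true) fun hx => ?_,
    fun i x hx => ?_, fun x hx => by simp only [f, dif_neg hx, mul_zero]⟩
  · obtain ⟨i, hi⟩ := mem_iUnion.1 hx
    exact (h i x hi).congr_of_eventuallyEq (eventually_of_mem ((hO i).mem_nhds hi) (hf i))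
  · have h0 : χ false x = 0 := by_contra fun k => hχ.mem (i := false) k hx.1
    have h1 := hχ.sq x
    rw [Fintype.sum_bool, h0] at h1
    show χ true x * f x = _
    rw [show χ true x = 1 by nlinarith [hχ.nonneg true x], one_mul, hf i x hx.2]

/-- isomorphisms on two open sets glue if units on the overlap have logarithms -/
theorem ci_union (hU : IsOpen U) (hV : IsOpen V) (hc : U ∪ V = univ) (h : m.On I P univ)
    (h' : n.On I P univ) (i : CI I m n u U) (j : CI I m n v V) (hl : SL I (U ∩ V)) :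
    ∃ w, CI I m n w univ := by
  obtain ⟨c, hc'⟩ := CI.ratio (h.mono (subset_univ _)) (h'.mono (subset_univ _))
    (i.mono inter_subset_left) (j.mono inter_subset_right)
  obtain ⟨r, hr⟩ := hl c fun x hx => ⟨(hc' x hx).1, (hc' x hx).2.1⟩
  obtain ⟨χ, hχ⟩ := exists_sqP (I := I) (U := fun b : Bool => cond b U V)
    (by rintro (_ | _); exacts [hV, hU]) fun x => by
      rcases (hc ▸ mem_univ x : x ∈ U ∪ V) with k | k
      exacts [⟨true, k⟩, ⟨false, k⟩]
  have sq : ∀ b x, x ∈ cond b V U → FSm I (fun y => χ b y * (χ b y * r y)) x := fun b x hx =>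
    fsm_cut (hχ.sm b x) (hχ.supp b) fun k => FSm.mul' (𝕜 := ℝ) (hχ.sm b x) (hr x (by
      cases b
      exacts [⟨hx, k⟩, ⟨k, hx⟩])).1
  obtain ⟨w, hw, -⟩ := exists_patchI (I := I) (m := m) (n := n) (U := fun b : Bool => cond b U V)
    (by rintro (_ | _); exacts [hV, hU])
    (v := fun b => cond b (fun x => Complex.exp ((χ false x * (χ false x * r x) : ℝ) * Complex.I) • u x)
      fun x => Complex.exp ((-(χ true x * (χ true x * r x)) : ℝ) * Complex.I) • v x)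
    (by rintro (_ | _); exacts [CI.exp j fun x hx => (sq true x hx).neg, CI.exp i (sq false)]) (by
      have key : ∀ x ∈ U ∩ V, Complex.exp ((χ false x * (χ false x * r x) : ℝ) * Complex.I) • u x =
          Complex.exp ((-(χ true x * (χ true x * r x)) : ℝ) * Complex.I) • v x := fun x hx => by
        have h1 := hχ.sq x
        rw [Fintype.sum_bool] at h1
        rw [(hc' x hx).2.2, (hr x hx).2, smul_smul, ← Complex.exp_add, ← add_mul, ← Complex.ofReal_add]
        congr 4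
        linear_combination r x * h1
      rintro (_ | _) (_ | _) x hx
      exacts [rfl, (key x ⟨hx.2, hx.1⟩).symm, key x hx, rfl])
  refine ⟨w, hw.mono fun x _ => ?_⟩
  rcases (hc ▸ mem_univ x : x ∈ U ∪ V) with k | k
  exacts [mem_iUnion.2 ⟨true, k⟩, mem_iUnion.2 ⟨false, k⟩]

/-- literal extension over disjoint open sets -/
theorem exists_exts {α : Type} {O : α → Set M} (hO : ∀ i, IsOpen (O i)) (hd : Pairwise (Disjoint on O))
    (hC : IsClosed C) (hCO : C ⊆ ⋃ i, O i) (h : m.On I P univ) {k : α → C8 M ι l}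
    (hk : ∀ i, (k i).On I P (O i)) (i : ∀ i, ∃ u, CI I m (k i) u (O i)) :
    ∃ (g : C8 M ι (l ⊕ κ)) (w : M → Matrix (l ⊕ κ) κ ℂ), g.On I P univ ∧ CI I m g w univ ∧
      ∀ i, LE (inl κ (k i)) g (C ∩ O i) := by
  have dj : ∀ i j, ∀ x ∈ O i ∩ O j, i = j := fun i j x hx =>
    by_contra fun q => disjoint_left.1 (hd q) hx.1 hx.2
  obtain ⟨a, a1, a2⟩ := exists_patchM hO hk fun i j x hx => by
    obtain rfl := dj i j x hx; exact ⟨rfl, rfl⟩
  choose u hu using i
  obtain ⟨w, w1, -⟩ := exists_patchI (n := a) hO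
    (fun i => (hu i).of_eq (fun _ _ => ⟨rfl, rfl⟩) (a2 i)) fun i j x hx => by
      obtain rfl := dj i j x hx; rfl
  obtain ⟨g, w', g1, g2, g3, -⟩ := exists_ext h (isOpen_iUnion hO) hC hCO a1 w1
  refine ⟨g, w', g1, g2, fun i x hx => ?_⟩
  have k1 := a2 i x hx.2
  exact ⟨(g3 x hx.1).1.trans (congrArg (fromBlocks · 0 0 0) k1.1),
    (g3 x hx.1).2.trans (funext fun c => congrArg (fromBlocks · 0 0 0) (congrFun k1.2 c))⟩

variable [I.Boundaryless]

/-- **uniqueness of glued classes** -/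
theorem eq_of_pb [SecondCountableTopology M] (hd : finrank ℝ E ≤ 4) (he : ∀ x, FAt e x) (hU : IsOpen U)
    (hV : IsOpen V) (hc : U ∪ V = univ) (hl : SL I (U ∩ V))
    (a : d.res (subset_univ U) = d'.res (subset_univ U))
    (b : d.res (subset_univ V) = d'.res (subset_univ V)) : d = d' := by
  obtain ⟨m, h, rfl⟩ := exists_rp (l := Fin 6) hd (by simp) he d
  obtain ⟨n, h', rfl⟩ := exists_rp (l := Fin 6) hd (by simp) he d'
  rw [res_cls, res_cls] at a b
  obtain ⟨u, i⟩ := (cls_eq_iff hU _ _).1 a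
  obtain ⟨v, j⟩ := (cls_eq_iff hV _ _).1 b
  obtain ⟨w, k⟩ := ci_union hU hV hc h.m h'.m ((iw_iff (h.mono (subset_univ _))).1 i)
    ((iw_iff (h.mono (subset_univ _))).1 j) hl
  exact (cls_eq_iff isOpen_univ _ _).2 ⟨w, (iw_iff h).2 k⟩

/-! ### families of frames -/

omit [T2Space M] [SigmaCompactSpace M] [I.Boundaryless] in
theorem nrm_pos {Q S : Matrix ι ι ℝ} (hQ : Prj Q) (hS : Adm Q S) : nrm Q (Q * S) = Q := by
  have t : ∀ A : Matrix ι ι ℝ, Aᴴ = Aᵀ := conjTranspose_eq_transpose_of_trivial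
  have h1 : (Q * S)ᴴ = Q * S := by rw [conjTranspose_mul, hQ.herm, t, hS.symm, hS.comm]
  have h2 : Q * S * Q = Q * S := by rw [Matrix.mul_assoc, hS.comm, ← Matrix.mul_assoc, hQ.idem]
  have h3 : (Q * S + (1 - Q)).PosDef := by
    have k := gram_posDef hQ (a := Met55.sq S * Q) fun v a b => by
      rw [← mulVec_mulVec, a] at b
      exact (mulVec_injective_iff_isUnit.2 (sq_pos hS.pos).isUnit) (b.trans (mulVec_zero _).symm)
    rwa [Pj41.gram, conjTranspose_mul, hQ.herm, t, hS.sq.symm, Matrix.mul_assoc, ← Matrix.mul_assoc (Met55.sq S),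
      sq_mul_sq hS.pos, ← Matrix.mul_assoc, h2] at k
  have h4 : Pj41.gram Q (Q * S) = (Q * S + (1 - Q)) * (Q * S + (1 - Q)) := by
    rw [Pj41.gram, h1]
    simp only [Matrix.add_mul, Matrix.mul_add, Matrix.mul_sub, Matrix.sub_mul, Matrix.mul_one,
      Matrix.one_mul, h2, ← Matrix.mul_assoc, hQ.idem]
    abel
  have h5 : Q * (Q * S + (1 - Q)) = Q * S := by
    rw [Matrix.mul_add, ← Matrix.mul_assoc, Matrix.mul_sub, hQ.idem]; simp
  have h6 := sq_mul_self h3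
  rw [Met55.sq] at h6
  rw [nrm, h4, h6]
  conv_lhs => enter [1]; rw [← h5]
  rw [Matrix.mul_assoc, mul_nonsing_inv _ h3.det_pos.ne'.isUnit, Matrix.mul_one]

/-- a positive change of the frame keeps the class -/
theorem Rp.mix {S : M → Matrix ι ι ℝ} (h : Rp e m d) (sS : ∀ x, MSm I S x)
    (hS : ∀ x, Adm (fP e x) (S x)) : Rp (mixF S e) m d := by
  have he : ∀ x, FAt (mixF S e) x := fun x =>
    ⟨vAt_mixF (sS x) (h.fr x).sm, (h.fr x).sp.mix (hS x).unit⟩
  have hP : ∀ x, fP (mixF S e) x = fP e x := fun x => fP_eq (he x).sp ((hS x).isP (h.fr x).isP)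
  refine h.of_eqv he (h.on.congr fun x _ => hP x)
    ⟨_, h.on.refl.of_eq (fun x hx => ⟨rfl, ?_⟩) fun _ _ => ⟨rfl, rfl⟩⟩
  have := (h.on.pc x hx).rot_self (h.on.p4 x hx).pr.symm
  rw [← this]
  refine congrArg (fun R => rot R (m.r x)) ?_
  show nrm (fP (mixF S e) x) (tm _ _ (Met55.mix (S x) (atx e x))) = fP e x
  rw [hP, tm_mix, (hS x).symm]
  exact nrm_pos (prj_fP (h.fr x).sp) (hS x)

theorem Rp.dfm {A : M → Matrix ι ι ℝ} (h : Rp e m d) (sA : ∀ x, MSm I A x)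
    (hA : ∀ x, Adm (fP e x) (A x)) : Rp (dfm A e) m d :=
  h.mix (fun x => msm_sq (sA x) (hA x).pos (.of_forall fun y => (hA y).symm)) fun x => (hA x).sq

/-- **a smooth family of frames with one projector has one class** -/
theorem Rp.fam {T : Type} [NormedAddCommGroup T] [NormedSpace ℝ T] {e : T → ι → VF I M} {t t' : T}
    (sm : ∀ a t x, VJ I (fun s => e s a) t x) (sp : ∀ t x, Sp (atx (e t) x))
    (hP : ∀ t x, fP (e t) x = P x) (h : Rp (e t) m d) : Rp (e t') m d := by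
  have he : ∀ t x, FAt (e t) x := fun t x => ⟨fun a => (sm a t x).right, sp t x⟩
  have hm : ∀ s, m.On I (fP (e s)) univ := fun s => h.on.congr fun x _ => (hP s x).trans (hP t x).symm
  let γ : ℝ → T := fun r => t + r • (t' - t)
  have sγ : ∀ z : ℝ × M, ContMDiffAt (𝓘(ℝ, ℝ).prod I) (𝓘(ℝ, T).prod I) ∞ (fun z : ℝ × M => (γ z.1, z.2)) z :=
    fun z => ((show ContDiff ℝ ∞ γ by fun_prop).contDiffAt.comp_contMDiffAt contMDiffAt_fst).prodMk
      contMDiffAt_snd
  have h0 : (m.comp Prod.snd).On (𝓘(ℝ, ℝ).prod I) (fun z : ℝ × M => fP (e t) z.2) (univ ×ˢ univ) :=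
    h.on.comp (fun _ _ => contMDiffAt_snd) (mapsTo_univ _ _)
  have h1 := h0.rot (P' := fun z => fP (e t) z.2) (R := fun z => pol (e t) (e (γ z.1)) z.2)
    (fun z _ => MSm.nrm (MSm.comp (f := fun z : ℝ × M => (γ z.1, z.2))
        (mJ_fP (fun a => sm a (γ z.1) z.2) (sp _ _)) (sγ z))
      (MSm.comp (f := fun z : ℝ × M => (γ z.1, z.2)) (mJ_fM (e := fun _ => e t)
        (fun a => VJ.of_fixed ((he t z.2).sm a)) (sp _ _) fun a => sm a (γ z.1) z.2) (sγ z))
      (.of_forall fun y => prj_fP (sp _ _)) (gi_fM (sp _ _) (sp _ _)).pos)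
    fun z _ => by
      have := piso_pol (sp t z.2) (sp (γ z.1) z.2)
      rwa [hP (γ z.1), ← hP t] at this
  obtain ⟨U, a, -⟩ := exists_ci_cyl isOpen_univ h1 h0 (u := m.p)
    (h.on.refl.of_eq (fun x hx => ⟨rfl, by
      show rot (pol (e t) (e (γ 0)) x) (m.r x) = _
      rw [show γ 0 = t by simp [γ]]
      exact h.1.tp_self hx⟩) fun _ _ => ⟨rfl, rfl⟩)
  refine h.of_eqv (he t') (hm t') ⟨_, (a.at 1).of_eq (fun x _ => ⟨rfl, ?_⟩) fun _ _ => ⟨rfl, rfl⟩⟩
  show rot (pol (e t) (e t') x) _ = rot (pol (e t) (e (γ 1)) x) _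
  simp only [γ, one_smul, add_sub_cancel]
  rfl

/-! ### cross-sections and necks -/

/-- **every class of a cylinder has a translation invariant module** -/
theorem exists_end [SecondCountableTopology M] (hd : finrank ℝ E ≤ 3) (hl : 6 ≤ Fintype.card l)
    {e : ι → VF (IC I) (M × ℝ)} (he : ∀ z, FAt e z) (hP : ∀ z, fP e z = fP e (z.1, 0))
    (s : Cls (IC I) (univ : Set (M × ℝ))) : ∃ n : C8 M ι l, Rp e (n.comp Prod.fst) s := by
  obtain ⟨m, h⟩ := exists_rp (l := l) (by rw [finrank_prod, finrank_self]; omega) hl he s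
  have h1 : ((m.comp fun y => (y, 0)).comp Prod.fst).On (IC I) (fP e) univ :=
    (h.on.comp (f := fun z : M × ℝ => (z.1, (0 : ℝ))) (W := univ)
      (fun _ _ => contMDiffAt_fst.prodMk contMDiffAt_const) (mapsTo_univ _ _)).congr fun z _ => hP z
  refine ⟨m.comp fun y => (y, 0), h.of_eqv he h1 ?_⟩
  rw [← univ_prod_univ]
  refine Eqv.cyl isOpen_univ isOpen_univ ordConnected_univ (subset_univ {0}) (singleton_nonempty _)
    (h.1.mono (subset_univ _)) ⟨fun z _ => he z, h1.mono (subset_univ _)⟩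
    (Sc.Eq.eqv (fun z hz => ?_) (h.1.mono (subset_univ _)))
  obtain ⟨y, t⟩ := z
  obtain rfl : t = 0 := hz.2
  exact ⟨rfl, rfl, rfl⟩

omit [T2Space M] [SigmaCompactSpace M] [I.Boundaryless] in
theorem fP_ce (e : ι → VF I M) (z : M × ℝ) : fP (I := IC I) (ce e) z = fP (I := IC I) (ce e) (z.1, 0) :=
  congrArg (prj _) (funext fun a => by cases a <;> rfl)

variable {α : Type} {Y : α → Mf 3} [∀ i, CompactSpace (Y i).M]
  {Ψ : ∀ i, OpenPartialHomeomorph ((Y i).M × ℝ) M}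

/-- **a module of class `d` that is literally the module of the cross-section on the necks** -/
theorem exists_nk [SecondCountableTopology M] (hd : finrank ℝ E ≤ 4) (hl : 6 ≤ Fintype.card κ)
    (he : ∀ x, FAt e x) {c : ∀ i, ι → VF (IC (Y i).I) ((Y i).M × ℝ)} (hr : ∀ i, Rel (c i) e (Ψ i))
    (dj : Pairwise (Disjoint on fun i => (Ψ i).target)) (hC : IsClosed C) (hs : C ⊆ ⋃ i, (Ψ i).target)
    {k : ∀ i, C8 ((Y i).M × ℝ) ι l} {s : ∀ i, Cls (IC (Y i).I) (univ : Set ((Y i).M × ℝ))}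
    (hk : ∀ i, Rp (c i) (k i) (s i)) (d : Cls I (univ : Set M))
    (hp : ∀ i, Pb (Ψ i) (Ψ i).source d (s i)) : ∃ g : C8 M ι (l ⊕ κ), Rp e g d ∧
      ∀ i, LE (inl κ (k i)) (g.comp (Ψ i)) ((Ψ i).source ∩ Ψ i ⁻¹' C) := by
  obtain ⟨m, h⟩ := exists_rp (l := κ) hd hl he d
  obtain ⟨g, w, g1, g2, g3⟩ := exists_exts (fun i => (Ψ i).open_target) dj hC hs h.on
    (k := fun i => (k i).comp (Ψ i).symm)
    (fun i => (Ψ i).image_source_eq_target ▸
      (hr i).on subset_rfl (fun y _ => (hk i).fr y) ((hk i).on.mono (subset_univ _)))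
    fun i => let ⟨_, q⟩ := ((hr i).pb_iff (Ψ i).open_source subset_rfl h (hk i)).1 (hp i)
      ⟨_, (Ψ i).image_source_eq_target ▸ (hr i).ci subset_rfl q⟩
  refine ⟨g, h.of_ci g1 g2, fun i z hz => ?_⟩
  have := g3 i _ ⟨hz.2, (Ψ i).map_source hz.1⟩
  exact ⟨this.1.trans (congrArg (fun y => (inl κ (k i)).p y) ((Ψ i).left_inv hz.1)),
    this.2.trans (congrArg (fun y => (inl κ (k i)).r y) ((Ψ i).left_inv hz.1))⟩

omit [I.Boundaryless] in
/-- **normal form on the necks** : up to a null-homotopic gauge transformation the intertwiner is a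
function of the cross-section, that may be changed by any exponential -/
theorem exists_gau {m' : C8 M ι κ} {u : M → Matrix κ κ ℂ} {J : α → Set ℝ} (hJ : ∀ i, IsOpen (J i))
    (hc : ∀ i, OrdConnected (J i)) (src : ∀ i, (Ψ i).source = univ ×ˢ J i)
    (sm : ∀ i, ContMDiffOn (IC (Y i).I) I ∞ (Ψ i) (Ψ i).source)
    (sm' : ∀ i, ContMDiffOn I (IC (Y i).I) ∞ (Ψ i).symm (Ψ i).target)
    (dj : Pairwise (Disjoint on fun i => (Ψ i).target)) (hC : IsClosed C) (hs : C ⊆ ⋃ i, (Ψ i).target)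
    (h : ∀ i, m.On I P (Ψ i).target) (q : ∀ i, LE m m' (Ψ i).target) (j : ∀ i, CI I m m' u (Ψ i).target) :
    ∃ g : ∀ i, (Y i).M → ℂ, (∀ i y, FSm (Y i).I (g i) y ∧ ‖g i y‖ = 1) ∧
      ∀ χ : ∀ i, (Y i).M → ℝ, (∀ i y, FSm (Y i).I (χ i) y) → ∃ β : M → ℝ, (∀ x, FSm I β x) ∧
        (∀ x ∉ ⋃ i, (Ψ i).target, β x = 0) ∧ ∀ i, ∀ z ∈ (Ψ i).source, Ψ i z ∈ C →
          Complex.exp (β (Ψ i z) * Complex.I) • u (Ψ i z) =
            (g i z.1 * Complex.exp (χ i z.1 * Complex.I)) • m.p (Ψ i z) := by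
  have key : ∀ i, ∃ (g : (Y i).M → ℂ) (r : (Y i).M × ℝ → ℝ), (∀ y, FSm (Y i).I g y ∧ ‖g y‖ = 1) ∧
      ∀ z ∈ (Ψ i).source, FSm (IC (Y i).I) r z ∧
        u (Ψ i z) = (g z.1 * Complex.exp (r z * Complex.I)) • m.p (Ψ i z) := fun i => by
    rcases (J i).eq_empty_or_nonempty with k | ⟨s, hs⟩
    · exact ⟨1, 0, fun _ => ⟨contMDiffAt_const, norm_one⟩, fun z hz => by simp [src, k] at hz⟩
    obtain ⟨c, c1⟩ := CI.ratio (h i) ((q i).on (Ψ i).open_target (h i)) ((q i).ci (h i)) (j i)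
    have c2 : ∀ z ∈ univ ×ˢ J i, FSm (IC (Y i).I) (fun z => c (Ψ i z)) z ∧ ‖c (Ψ i z)‖ = 1 :=
      fun z hz => have k : z ∈ (Ψ i).source := src i ▸ hz
        ⟨(c1 _ ((Ψ i).map_source k)).1.comp z ((sm i z k).contMDiffAt ((Ψ i).open_source.mem_nhds k)),
          (c1 _ ((Ψ i).map_source k)).2.1⟩
    obtain ⟨r, hr⟩ := exists_slice (hJ i) (hc i) hs c2
    exact ⟨fun y => c (Ψ i (y, s)), r, fun y => ⟨ContMDiffAt.comp (f := fun y => (y, s)) y
      (c2 (y, s) ⟨trivial, hs⟩).1 (contMDiffAt_id.prodMk contMDiffAt_const), (c2 _ ⟨trivial, hs⟩).2⟩, fun z hz =>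
        ⟨(hr z (src i ▸ hz)).1, by rw [(c1 _ ((Ψ i).map_source hz)).2.2, (hr z (src i ▸ hz)).2]⟩⟩
  choose g r hg hr using key
  refine ⟨g, hg, fun χ hχ => ?_⟩
  obtain ⟨β, b1, b2, b3⟩ := exists_fun (I := I) (fun i => (Ψ i).open_target) dj hC hs
    (θ := fun i x => χ i ((Ψ i).symm x).1 - r i ((Ψ i).symm x)) fun i x hx =>
      have k := (sm' i x hx).contMDiffAt ((Ψ i).open_target.mem_nhds hx)
      ((hχ i _).comp x (contMDiffAt_fst.comp x k)).sub ((hr i _ ((Ψ i).map_target hx)).1.comp x k)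
  refine ⟨β, b1, b3, fun i z hz hz' => ?_⟩
  rw [b2 i _ ⟨hz', (Ψ i).map_source hz⟩, (Ψ i).left_inv hz, (hr i z hz).2, smul_smul, mul_left_comm,
    ← Complex.exp_add]
  congr 3
  push_cast; ring

end Crest.Agent.X212.Gm56
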